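import Vale.Agent.P314.Time

namespace Vale.Agent.Results.P314.Hitting

open Vale.Agent.P314

theorem result (F : Type) [Field F] (enc : F → List Bool) :
    ∃ H : (n s : ℕ) → List (Tuple F n),
      (∀ n s, IsHittingSet n s (H n s)) ∧
      (∀ n s, (H n s).length = 1 ∧ ∀ T ∈ H n s, T.1 = ((s + 1) ^ 2 * (n + 1) + 1) ^ 3) ∧
      ∃ h : Turing.TM2ComputableInPolyTime encInput (encOutput enc)
          (fun x : ℕ × ℕ => (⟨x.1, H x.1 x.2⟩ : Σ n : ℕ, List (Tuple F n))),
        ∀ k, Finite (h.tm.Γ k) := by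
  refine ⟨fun n s => [hitTuple F n s], hitting, fun n s => ⟨rfl, fun T hT => ?_⟩, polytime enc⟩
  rw [List.mem_singleton.1 hT]
  simp only [hitTuple]
  ring

end Vale.Agent.Results.P314.Hitting
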